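import Vale.Agent.P181.FLAT.H246.Lef
import Vale.Agent.P181.FL.Defs

set_option autoImplicit false

/-!
# P181, FLAT / FL: hard Lefschetz (surjectivity) in the exterior algebra
-/

namespace Vale.Agent.P181.FLAT.H246

open Vale.Agent.P181.FL

/-- The generators. -/
noncomputable def gen (h : ℕ) (p : Fin h × Bool) : ExteriorAlgebra ℂ (Fin h ⊕ Fin h → ℂ) :=
  if p.2 then ExteriorAlgebra.ι ℂ (Pi.single (Sum.inr p.1) 1)
  else ExteriorAlgebra.ι ℂ (Pi.single (Sum.inl p.1) 1)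

lemma ι_swap {M : Type*} [AddCommGroup M] [Module ℂ M] (x y : M) :
    ExteriorAlgebra.ι ℂ x * ExteriorAlgebra.ι ℂ y =
      -(ExteriorAlgebra.ι ℂ y * ExteriorAlgebra.ι ℂ x) :=
  eq_neg_of_add_eq_zero_left (ExteriorAlgebra.ι_add_mul_swap x y)

lemma span_gen (h : ℕ) : Submodule.span ℂ (Set.range (gen h)) =
    LinearMap.range (ExteriorAlgebra.ι ℂ : (Fin h ⊕ Fin h → ℂ) →ₗ[ℂ] _) := by
  rw [LinearMap.range_eq_map, ← (Pi.basisFun ℂ (Fin h ⊕ Fin h)).span_eq, Submodule.map_span,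
    ← Set.range_comp]
  congr 1
  ext x
  constructor
  · rintro ⟨⟨i, b⟩, rfl⟩
    cases b
    · exact ⟨Sum.inl i, by simp [gen]⟩
    · exact ⟨Sum.inr i, by simp [gen]⟩
  · rintro ⟨i | i, rfl⟩
    · exact ⟨(i, false), by simp [gen]⟩
    · exact ⟨(i, true), by simp [gen]⟩

/-- **[HL]** -/
theorem hl : HLStmt := by
  intro h p k hpk K hK
  have h1 : ∀ i j, gen h i * gen h j = -(gen h j * gen h i) := by
    intro i j
    unfold gen
    split_ifs <;> exact ι_swap _ _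
  have h2 : ∀ i, gen h i * gen h i = 0 := by
    intro i
    unfold gen
    split_ifs <;> exact ExteriorAlgebra.ι_sq_zero _
  obtain ⟨u, hu, hue⟩ := lef (gen h) h1 h2 p k hpk.ge K (by rw [span_gen]; exact hK)
  refine ⟨u, by rw [span_gen] at hu; exact hu, ?_⟩
  rw [← hue]
  rfl

end Vale.Agent.P181.FLAT.H246
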