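import Mathlib.Algebra.Algebra.Operations
import Mathlib.Analysis.Complex.Basic
import Mathlib.Tactic

set_option autoImplicit false

/-!
# P181, FLAT, [L1]: surjectivity in the hard Lefschetz theorem

`A` is any algebra with pairwise anticommuting elements `e i`, `f i` of square zero,
`ω = Σ i < n, e i * f i`. Multiplication by `ω ^ k` maps the span of the products of `m`
generators onto the span of the products of `m + 2 k` generators as soon as `n ≤ m + k`.
-/

namespace Vale.Agent.P181.FLAT.H246

variable {A : Type*} [Ring A] [Algebra ℂ A]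

/-- Pairwise anticommuting elements of square zero. -/
structure Anti (e f : ℕ → A) : Prop where
  ee : ∀ i j, e i * e j = -(e j * e i)
  ff : ∀ i j, f i * f j = -(f j * f i)
  ef : ∀ i j, e i * f j = -(f j * e i)
  e0 : ∀ i, e i * e i = 0
  f0 : ∀ i, f i * f i = 0

/-- The form `ω`. -/
def Om (e f : ℕ → A) (n : ℕ) : A := ∑ i ∈ Finset.range n, e i * f i

/-- Degree `d` in the first `n` pairs of generators. -/
noncomputable def L (e f : ℕ → A) : ℕ → ℤ → Submodule ℂ A
  | 0, d => if d = 0 then 1 else ⊥
  | n + 1, d => L e f n d ⊔ (L e f n (d - 1)).map (LinearMap.mulLeft ℂ (e n)) ⊔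
      (L e f n (d - 1)).map (LinearMap.mulLeft ℂ (f n)) ⊔
      (L e f n (d - 2)).map (LinearMap.mulLeft ℂ (e n * f n))

variable {e f : ℕ → A}

lemma mem_L_succ {n : ℕ} {d : ℤ} {v : A} : v ∈ L e f (n + 1) d ↔
    ∃ a ∈ L e f n d, ∃ b ∈ L e f n (d - 1), ∃ c ∈ L e f n (d - 1), ∃ g ∈ L e f n (d - 2),
      v = a + e n * b + f n * c + e n * f n * g := by
  rw [L, Submodule.mem_sup]
  constructor
  · rintro ⟨x, hx, y, hy, hv⟩
    obtain ⟨g, hg, hge⟩ := hy
    obtain ⟨x1, hx1, y1, hy1, hx1e⟩ := Submodule.mem_sup.1 hx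
    obtain ⟨c, hc, hce⟩ := hy1
    obtain ⟨x2, hx2, y2, hy2, hx2e⟩ := Submodule.mem_sup.1 hx1
    obtain ⟨b, hb, hbe⟩ := hy2
    refine ⟨x2, hx2, b, hb, c, hc, g, hg, ?_⟩
    rw [← hv, ← hge, ← hx1e, ← hce, ← hx2e, ← hbe]
    rfl
  · rintro ⟨a, ha, b, hb, c, hc, g, hg, rfl⟩
    exact ⟨_, Submodule.mem_sup.2 ⟨_, Submodule.mem_sup.2 ⟨a, ha, _, ⟨b, hb, rfl⟩, rfl⟩, _,
      ⟨c, hc, rfl⟩, rfl⟩, _, ⟨g, hg, rfl⟩, rfl⟩

lemma L_neg (n : ℕ) : ∀ d : ℤ, d < 0 → L e f n d = ⊥ := by
  induction n with
  | zero =>
    intro d hd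
    rw [L, if_neg (by omega)]
  | succ n ih =>
    intro d hd
    rw [L, ih d hd, ih (d - 1) (by omega), ih (d - 2) (by omega)]
    simp

lemma one_mem_L (n : ℕ) : (1 : A) ∈ L e f n 0 := by
  induction n with
  | zero =>
    rw [L, if_pos rfl]
    exact Submodule.one_le.1 le_rfl
  | succ n ih =>
    exact mem_L_succ.2 ⟨1, ih, 0, zero_mem _, 0, zero_mem _, 0, zero_mem _, by simp⟩

lemma Anti.e_mul (h : Anti e f) (n : ℕ) : ∀ (d : ℤ) (i : ℕ), i < n → ∀ v ∈ L e f n d,
    e i * v ∈ L e f n (d + 1) := by
  induction n with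
  | zero => intro d i hi; omega
  | succ n ih =>
    intro d i hi v hv
    obtain ⟨a, ha, b, hb, c, hc, g, hg, rfl⟩ := mem_L_succ.1 hv
    rcases Nat.lt_succ_iff_lt_or_eq.1 hi with hi | rfl
    · refine mem_L_succ.2 ⟨e i * a, ih d i hi a ha, -(e i * b), ?_, -(e i * c), ?_, e i * g, ?_, ?_⟩
      · have := ih _ i hi b hb
        rw [show d + 1 - 1 = d - 1 + 1 by ring]
        exact neg_mem this
      · have := ih _ i hi c hc
        rw [show d + 1 - 1 = d - 1 + 1 by ring]
        exact neg_mem this
      · have := ih _ i hi g hg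
        rw [show d + 1 - 2 = d - 2 + 1 by ring]
        exact this
      · have h1 : e i * (e n * b) = e n * -(e i * b) := by
          rw [← mul_assoc, h.ee i n, neg_mul, mul_assoc, mul_neg]
        have h2 : e i * (f n * c) = f n * -(e i * c) := by
          rw [← mul_assoc, h.ef i n, neg_mul, mul_assoc, mul_neg]
        have h3 : e i * (e n * f n * g) = e n * f n * (e i * g) := by
          calc e i * (e n * f n * g) = (e i * e n) * f n * g := by noncomm_ring
            _ = -(e n * (e i * f n)) * g := by rw [h.ee i n]; noncomm_ring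
            _ = e n * f n * (e i * g) := by rw [h.ef i n]; noncomm_ring
        rw [mul_add, mul_add, mul_add, h1, h2, h3]
    · refine mem_L_succ.2 ⟨0, zero_mem _, a, ?_, 0, zero_mem _, c, ?_, ?_⟩
      · rw [show d + 1 - 1 = d by ring]; exact ha
      · rw [show d + 1 - 2 = d - 1 by ring]; exact hc
      · have h1 : e i * (e i * b) = 0 := by rw [← mul_assoc, h.e0, zero_mul]
        have h3 : e i * (e i * f i * g) = 0 := by
          rw [← mul_assoc, ← mul_assoc, h.e0, zero_mul, zero_mul]
        rw [mul_add, mul_add, mul_add, h1, h3]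
        noncomm_ring

lemma Anti.f_mul (h : Anti e f) (n : ℕ) : ∀ (d : ℤ) (i : ℕ), i < n → ∀ v ∈ L e f n d,
    f i * v ∈ L e f n (d + 1) := by
  induction n with
  | zero => intro d i hi; omega
  | succ n ih =>
    intro d i hi v hv
    obtain ⟨a, ha, b, hb, c, hc, g, hg, rfl⟩ := mem_L_succ.1 hv
    have hfe : ∀ i j, f i * e j = -(e j * f i) := by
      intro i j; rw [h.ef j i, neg_neg]
    rcases Nat.lt_succ_iff_lt_or_eq.1 hi with hi | rfl
    · refine mem_L_succ.2 ⟨f i * a, ih d i hi a ha, -(f i * b), ?_, -(f i * c), ?_, f i * g, ?_, ?_⟩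
      · have := ih _ i hi b hb
        rw [show d + 1 - 1 = d - 1 + 1 by ring]
        exact neg_mem this
      · have := ih _ i hi c hc
        rw [show d + 1 - 1 = d - 1 + 1 by ring]
        exact neg_mem this
      · have := ih _ i hi g hg
        rw [show d + 1 - 2 = d - 2 + 1 by ring]
        exact this
      · have h1 : f i * (e n * b) = e n * -(f i * b) := by
          rw [← mul_assoc, hfe i n, neg_mul, mul_assoc, mul_neg]
        have h2 : f i * (f n * c) = f n * -(f i * c) := by
          rw [← mul_assoc, h.ff i n, neg_mul, mul_assoc, mul_neg]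
        have h3 : f i * (e n * f n * g) = e n * f n * (f i * g) := by
          calc f i * (e n * f n * g) = (f i * e n) * f n * g := by noncomm_ring
            _ = -(e n * (f i * f n)) * g := by rw [hfe i n]; noncomm_ring
            _ = e n * f n * (f i * g) := by rw [h.ff i n]; noncomm_ring
        rw [mul_add, mul_add, mul_add, h1, h2, h3]
    · refine mem_L_succ.2 ⟨0, zero_mem _, 0, zero_mem _, a, ?_, -b, ?_, ?_⟩
      · rw [show d + 1 - 1 = d by ring]; exact ha
      · rw [show d + 1 - 2 = d - 1 by ring]; exact neg_mem hb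
      · have h1 : f i * (e i * b) = -(e i * f i * b) := by
          rw [← mul_assoc, hfe, neg_mul]
        have h2 : f i * (f i * c) = 0 := by rw [← mul_assoc, h.f0, zero_mul]
        have h3 : f i * (e i * f i * g) = 0 := by
          calc f i * (e i * f i * g) = (f i * e i) * f i * g := by noncomm_ring
            _ = -(e i * (f i * f i)) * g := by rw [hfe]; noncomm_ring
            _ = 0 := by rw [h.f0]; simp
        rw [mul_add, mul_add, mul_add, h1, h2, h3]
        noncomm_ring

lemma Anti.om_mul (h : Anti e f) {n : ℕ} {d : ℤ} {v : A} (hv : v ∈ L e f n d) :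
    Om e f n * v ∈ L e f n (d + 2) := by
  rw [Om, Finset.sum_mul]
  apply Submodule.sum_mem
  intro i hi
  have hi' := Finset.mem_range.1 hi
  have h1 := h.e_mul n _ i hi' _ (h.f_mul n _ i hi' v hv)
  rw [mul_assoc, show d + 2 = d + 1 + 1 by ring]
  exact h1

lemma Anti.om_pow_mul (h : Anti e f) {n : ℕ} (k : ℕ) : ∀ {d : ℤ} {v : A}, v ∈ L e f n d →
    Om e f n ^ k * v ∈ L e f n (d + 2 * k) := by
  induction k with
  | zero => intro d v hv; simpa using hv
  | succ k ih =>
    intro d v hv
    have h1 := h.om_mul (ih hv)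
    rw [pow_succ', mul_assoc]
    have h2 : d + 2 * ((k + 1 : ℕ) : ℤ) = d + 2 * k + 2 := by push_cast; ring
    rw [h2]
    exact h1

omit [Algebra ℂ A] in
lemma Anti.pair_e (h : Anti e f) (i j : ℕ) : e i * f i * e j = e j * (e i * f i) := by
  have hfe : f i * e j = -(e j * f i) := by rw [h.ef j i, neg_neg]
  calc e i * f i * e j = e i * (f i * e j) := by noncomm_ring
    _ = -(e i * e j) * f i := by rw [hfe]; noncomm_ring
    _ = e j * (e i * f i) := by rw [h.ee i j]; noncomm_ring

omit [Algebra ℂ A] in
lemma Anti.pair_f (h : Anti e f) (i j : ℕ) : e i * f i * f j = f j * (e i * f i) := by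
  calc e i * f i * f j = e i * (f i * f j) := by noncomm_ring
    _ = -(e i * f j) * f i := by rw [h.ff i j]; noncomm_ring
    _ = f j * (e i * f i) := by rw [h.ef i j]; noncomm_ring

omit [Algebra ℂ A] in
lemma Anti.om_e (h : Anti e f) (n j : ℕ) : Commute (Om e f n) (e j) := by
  unfold Om
  apply Commute.sum_left
  intro i _
  exact h.pair_e i j

omit [Algebra ℂ A] in
lemma Anti.om_f (h : Anti e f) (n j : ℕ) : Commute (Om e f n) (f j) := by
  unfold Om
  apply Commute.sum_left
  intro i _
  exact h.pair_f i j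

omit [Algebra ℂ A] in
lemma Anti.pair_sq (h : Anti e f) (j : ℕ) : e j * f j * (e j * f j) = 0 := by
  rw [← mul_assoc, h.pair_e j j, ← mul_assoc, h.e0]
  simp

omit [Algebra ℂ A] in
lemma om_succ (n : ℕ) : Om e f (n + 1) = Om e f n + e n * f n := by
  rw [Om, Finset.sum_range_succ]
  rfl

lemma Anti.om_succ_pow (h : Anti e f) (n k : ℕ) : Om e f (n + 1) ^ (k + 1) =
    Om e f n ^ (k + 1) + (k + 1 : ℂ) • (Om e f n ^ k * (e n * f n)) := by
  have hc : Commute (Om e f n) (e n * f n) := (h.om_e n n).mul_right (h.om_f n n)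
  induction k with
  | zero => simp [om_succ]
  | succ k ih =>
    have hp : Om e f n ^ k * (e n * f n) * (e n * f n) = 0 := by
      rw [mul_assoc, h.pair_sq, mul_zero]
    have hq : Om e f n ^ k * (e n * f n) * Om e f n = Om e f n ^ (k + 1) * (e n * f n) := by
      rw [mul_assoc, ← hc.eq, ← mul_assoc, ← pow_succ]
    rw [pow_succ, ih, om_succ, add_mul, mul_add, mul_add, ← pow_succ, smul_mul_assoc,
      smul_mul_assoc, hp, hq, smul_zero, add_zero, add_assoc]
    congr 1
    push_cast
    module

/-- **Surjectivity in the hard Lefschetz theorem**, in the graded pieces `L`. -/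
theorem Anti.core (h : Anti e f) (n : ℕ) : ∀ (k : ℕ) (m : ℤ), (n : ℤ) ≤ m + k →
    ∀ v ∈ L e f n (m + 2 * k), ∃ u ∈ L e f n m, Om e f n ^ k * u = v := by
  induction n with
  | zero =>
    intro k m hm v hv
    rw [L] at hv
    by_cases hd : m + 2 * (k : ℤ) = 0
    · have hk : k = 0 := by push_cast at hm; omega
      subst hk
      have hm0 : m = 0 := by simpa using hd
      subst hm0
      rw [if_pos (by simp)] at hv
      refine ⟨v, ?_, by simp⟩
      rw [L, if_pos rfl]
      exact hv
    · rw [if_neg hd, Submodule.mem_bot] at hv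
      exact ⟨0, zero_mem _, by rw [hv, mul_zero]⟩
  | succ n ih =>
    intro k m hm v hv
    cases k with
    | zero =>
      refine ⟨v, ?_, by simp⟩
      simpa using hv
    | succ k =>
      push_cast at hm hv
      obtain ⟨a, ha, b, hb, c, hc, g, hg, rfl⟩ := mem_L_succ.1 hv
      obtain ⟨b', hb', hbe⟩ := ih (k + 1) (m - 1) (by push_cast; omega) b (by
        convert hb using 2; push_cast; ring)
      obtain ⟨c', hc', hce⟩ := ih (k + 1) (m - 1) (by push_cast; omega) c (by
        convert hc using 2; push_cast; ring)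
      obtain ⟨w, hw, hwe⟩ := ih (k + 2) (m - 2) (by push_cast; omega) a (by
        convert ha using 2; push_cast; ring)
      have h1 : g - (k + 1 : ℂ) • (Om e f n ^ (k + 1) * w) ∈ L e f n (m + 2 * (k : ℤ)) := by
        apply sub_mem
        · convert hg using 2; ring
        · apply Submodule.smul_mem
          have := h.om_pow_mul (k + 1) hw
          convert this using 2; push_cast; ring
      obtain ⟨y, hy, hye⟩ := ih k m (by omega) _ h1
      have h2 : Om e f n ^ (k + 1) * y ∈ L e f n (m - 2 + 2 * ((k + 2 : ℕ) : ℤ)) := by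
        have := h.om_pow_mul (k + 1) hy
        convert this using 2; push_cast; ring
      obtain ⟨w', hw', hwe'⟩ := ih (k + 2) (m - 2) (by push_cast; omega) _ h2
      have hk : (k + 1 : ℂ) ≠ 0 := by exact_mod_cast Nat.succ_ne_zero k
      have hz0 : Om e f n ^ (k + 1) * (y - Om e f n * w') = 0 := by
        rw [mul_sub, ← mul_assoc, ← pow_succ, hwe', sub_self]
      have hzm : y - Om e f n * w' ∈ L e f n m := by
        apply sub_mem hy
        have := h.om_mul hw'
        convert this using 2; ring
      have hOw : Om e f n * w ∈ L e f n m := by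
        have := h.om_mul hw
        convert this using 2; ring
      have ce : ∀ j x, Om e f n ^ j * (e n * x) = e n * (Om e f n ^ j * x) := by
        intro j x
        rw [← mul_assoc, ((h.om_e n n).pow_left j).eq, mul_assoc]
      have cf : ∀ j x, Om e f n ^ j * (f n * x) = f n * (Om e f n ^ j * x) := by
        intro j x
        rw [← mul_assoc, ((h.om_f n n).pow_left j).eq, mul_assoc]
      have cp : ∀ j x, Om e f n ^ j * (e n * f n * x) = e n * f n * (Om e f n ^ j * x) := by
        intro j x
        rw [mul_assoc, ce, cf, mul_assoc]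
      have pe : ∀ x, e n * f n * (e n * x) = 0 := by
        intro x
        rw [← mul_assoc, h.pair_e n n, ← mul_assoc, h.e0]
        simp
      have pf : ∀ x, e n * f n * (f n * x) = 0 := by
        intro x
        rw [mul_assoc, ← mul_assoc (f n), h.f0]
        simp
      have pp : ∀ x, e n * f n * (e n * f n * x) = 0 := by
        intro x
        rw [← mul_assoc, h.pair_sq, zero_mul]
      refine ⟨(Om e f n * w + (k + 1 : ℂ)⁻¹ • (y - Om e f n * w')) + e n * b' + f n * c' +
        e n * f n * w', mem_L_succ.2 ⟨_, add_mem hOw (Submodule.smul_mem _ _ hzm), b', hb', c', hc',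
        w', hw', rfl⟩, ?_⟩
      rw [h.om_succ_pow, add_mul]
      have e1 : Om e f n ^ (k + 1) * ((Om e f n * w + (k + 1 : ℂ)⁻¹ • (y - Om e f n * w')) +
          e n * b' + f n * c' + e n * f n * w') =
          a + e n * b + f n * c + e n * f n * (Om e f n ^ (k + 1) * w') := by
        rw [mul_add, mul_add, mul_add, mul_add, mul_smul_comm, hz0, smul_zero, add_zero,
          ce, cf, cp, hbe, hce, ← mul_assoc, ← pow_succ, hwe]
      have e2 : (k + 1 : ℂ) • (Om e f n ^ k * (e n * f n)) *
          ((Om e f n * w + (k + 1 : ℂ)⁻¹ • (y - Om e f n * w')) +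
          e n * b' + f n * c' + e n * f n * w') =
          e n * f n * ((k + 1 : ℂ) • (Om e f n ^ (k + 1) * w) +
            (Om e f n ^ k * y - Om e f n ^ (k + 1) * w')) := by
        have e3 : e n * f n * ((Om e f n * w + (k + 1 : ℂ)⁻¹ • (y - Om e f n * w')) +
            e n * b' + f n * c' + e n * f n * w') =
            e n * f n * (Om e f n * w + (k + 1 : ℂ)⁻¹ • (y - Om e f n * w')) := by
          rw [mul_add (e n * f n), mul_add (e n * f n), mul_add (e n * f n), pe, pf, pp, add_zero,
            add_zero, add_zero]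
        rw [smul_mul_assoc, mul_assoc, e3, cp, ← mul_smul_comm]
        congr 1
        rw [mul_add, smul_add, mul_smul_comm, smul_smul, mul_inv_cancel₀ hk, one_smul, mul_sub,
          ← mul_assoc, ← mul_assoc, ← pow_succ]
      rw [e1, e2, hye]
      noncomm_ring

/-- The first generators. -/
def ge {n : ℕ} (g : Fin n × Bool → A) (b : Bool) (i : ℕ) : A :=
  if h : i < n then g (⟨i, h⟩, b) else 0

omit [Algebra ℂ A] in
lemma anti_ge {n : ℕ} (g : Fin n × Bool → A) (h1 : ∀ i j, g i * g j = -(g j * g i))
    (h2 : ∀ i, g i * g i = 0) : Anti (ge g false) (ge g true) := by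
  have key : ∀ b c i j, ge g b i * ge g c j = -(ge g c j * ge g b i) := by
    intro b c i j
    unfold ge
    split_ifs
    · exact h1 _ _
    all_goals simp
  have key0 : ∀ b i, ge g b i * ge g b i = 0 := by
    intro b i
    unfold ge
    split_ifs
    · exact h2 _
    · simp
  exact ⟨fun i j => key _ _ i j, fun i j => key _ _ i j, fun i j => key _ _ i j,
    fun i => key0 _ i, fun i => key0 _ i⟩

lemma span_pow_le_L {n : ℕ} (g : Fin n × Bool → A) (h1 : ∀ i j, g i * g j = -(g j * g i))
    (h2 : ∀ i, g i * g i = 0) (d : ℕ) : (Submodule.span ℂ (Set.range g)) ^ d ≤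
      L (ge g false) (ge g true) n (d : ℤ) := by
  have hA := anti_ge g h1 h2
  induction d with
  | zero =>
    rw [pow_zero, Nat.cast_zero]
    exact Submodule.one_le.2 (one_mem_L n)
  | succ d ih =>
    rw [pow_succ', Submodule.mul_le]
    intro x hx y hy
    have hy' := ih hy
    induction hx using Submodule.span_induction with
    | mem x hx =>
      obtain ⟨⟨i, b⟩, rfl⟩ := hx
      have hi : g (i, b) = ge g b i := by
        unfold ge
        rw [dif_pos i.2]
      rw [hi]
      push_cast
      cases b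
      · exact hA.e_mul n _ i i.2 y hy'
      · exact hA.f_mul n _ i i.2 y hy'
    | zero => rw [zero_mul]; exact zero_mem _
    | add x x' _ _ hx hx' => rw [add_mul]; exact add_mem hx hx'
    | smul c x _ hx => rw [smul_mul_assoc]; exact Submodule.smul_mem _ _ hx

lemma L_le_span_pow {n : ℕ} (g : Fin n × Bool → A) (j : ℕ) : j ≤ n → ∀ d : ℕ,
    L (ge g false) (ge g true) j (d : ℤ) ≤ (Submodule.span ℂ (Set.range g)) ^ d := by
  have hg : ∀ b i, ge g b i ∈ Submodule.span ℂ (Set.range g) := by
    intro b i
    unfold ge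
    split_ifs
    · exact Submodule.subset_span ⟨_, rfl⟩
    · exact zero_mem _
  induction j with
  | zero =>
    intro _ d
    rw [L]
    split_ifs with hd
    · have : d = 0 := by exact_mod_cast hd
      subst this
      rw [pow_zero]
    · exact bot_le
  | succ j ih =>
    intro hj d v hv
    obtain ⟨a, ha, b, hb, c, hc, y, hy, rfl⟩ := mem_L_succ.1 hv
    have ih' := ih (by omega)
    refine add_mem (add_mem (add_mem (ih' d ha) ?_) ?_) ?_
    · rcases Nat.eq_zero_or_pos d with rfl | hd
      · rw [L_neg _ _ (by simp), Submodule.mem_bot] at hb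
        rw [hb, mul_zero]
        exact zero_mem _
      · obtain ⟨d, rfl⟩ := Nat.exists_eq_succ_of_ne_zero hd.ne'
        rw [Nat.succ_eq_add_one, pow_succ']
        refine Submodule.mul_mem_mul (hg _ _) (ih' d ?_)
        convert hb using 2
        push_cast
        ring
    · rcases Nat.eq_zero_or_pos d with rfl | hd
      · rw [L_neg _ _ (by simp), Submodule.mem_bot] at hc
        rw [hc, mul_zero]
        exact zero_mem _
      · obtain ⟨d, rfl⟩ := Nat.exists_eq_succ_of_ne_zero hd.ne'
        rw [Nat.succ_eq_add_one, pow_succ']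
        refine Submodule.mul_mem_mul (hg _ _) (ih' d ?_)
        convert hc using 2
        push_cast
        ring
    · by_cases hd : d < 2
      · rw [L_neg _ _ (by omega), Submodule.mem_bot] at hy
        rw [hy, mul_zero]
        exact zero_mem _
      · obtain ⟨d, rfl⟩ := Nat.exists_eq_add_of_le (not_lt.1 hd)
        rw [show 2 + d = d + 1 + 1 by ring, pow_succ', pow_succ', mul_assoc]
        refine Submodule.mul_mem_mul (hg _ _) (Submodule.mul_mem_mul (hg _ _) (ih' d ?_))
        convert hy using 2
        push_cast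
        ring

/-- **[LEF]** Surjectivity in the hard Lefschetz theorem. -/
theorem lef {A : Type*} [Ring A] [Algebra ℂ A] {n : ℕ} (g : Fin n × Bool → A)
    (h1 : ∀ i j, g i * g j = -(g j * g i)) (h2 : ∀ i, g i * g i = 0) (m k : ℕ) (h : n ≤ m + k) :
    ∀ v ∈ (Submodule.span ℂ (Set.range g)) ^ (m + 2 * k),
      ∃ u ∈ (Submodule.span ℂ (Set.range g)) ^ m,
        (∑ i, g (i, false) * g (i, true)) ^ k * u = v := by
  intro v hv
  have hv' := span_pow_le_L g h1 h2 _ hv
  push_cast at hv'
  obtain ⟨u, hu, hue⟩ := (anti_ge g h1 h2).core n k m (by exact_mod_cast h) v hv'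
  refine ⟨u, L_le_span_pow g n le_rfl m hu, ?_⟩
  rw [← hue]
  congr 2
  rw [Om, Finset.sum_range]
  apply Finset.sum_congr rfl
  intro i _
  unfold ge
  rw [dif_pos i.2, dif_pos i.2]

end Vale.Agent.P181.FLAT.H246
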